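import Mathlib

/-!
P133 (helper185): the numerical core of the key lemma. In a unital C*-algebra a certain
combination of almost orthogonal elements is not a multiple of the projection `e`.
-/

open scoped ComplexOrder

namespace Vale.Agent.P133.H185

universe u

section

variable {U : Type u} [CStarAlgebra U] [PartialOrder U] [StarOrderedRing U]

omit [PartialOrder U] [StarOrderedRing U] in
theorem sq_norm_near {x g : U} {η : ℝ} (h : ‖star x * x - g‖ ≤ η) :
    |‖x‖ * ‖x‖ - ‖g‖| ≤ η := by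
  rw [← CStarRing.norm_star_mul_self]
  exact (abs_norm_sub_norm_le _ _).trans h

omit [PartialOrder U] [StarOrderedRing U] in
theorem norm_conj_le (x y : U) : ‖star x * y * x‖ ≤ ‖y‖ * (‖x‖ * ‖x‖) := by
  calc _ ≤ ‖star x * y‖ * ‖x‖ := norm_mul_le _ _
    _ ≤ ‖star x‖ * ‖y‖ * ‖x‖ := by gcongr; exact norm_mul_le _ _
    _ = _ := by rw [norm_star]; ring

/-- the square of `s₁ s₁* + 2 s₂ s₂*` -/
theorem norm_h_le {s₁ s₂ q : U} {η : ℝ} (hη : 0 ≤ η)
    (h11 : ‖star s₁ * s₁ - q‖ ≤ η) (h22 : ‖star s₂ * s₂ - q‖ ≤ η) (h12 : ‖star s₁ * s₂‖ ≤ η) :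
    ‖s₁ * star s₁ + (2 : ℝ) • (s₂ * star s₂)‖ * ‖s₁ * star s₁ + (2 : ℝ) • (s₂ * star s₂)‖ ≤
      2 * (‖q‖ + η) * ‖s₁ * star s₁ + (2 : ℝ) • (s₂ * star s₂)‖ + 4 * η * (‖q‖ + η) := by
  set h : U := s₁ * star s₁ + (2 : ℝ) • (s₂ * star s₂) with hh
  have hsa : star h = h := by
    rw [hh, star_add, star_smul, star_mul, star_mul, star_star, star_star]; rfl
  have h0 : 0 ≤ h := add_nonneg (mul_star_self_nonneg _)
    (smul_nonneg (by norm_num) (mul_star_self_nonneg _))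
  have hsq : ‖h‖ * ‖h‖ = ‖h * h‖ := by
    have := CStarRing.norm_star_mul_self (x := h)
    rw [hsa] at this
    exact this.symm
  have g1 : ‖star s₁ * s₁‖ ≤ ‖q‖ + η := by
    have := norm_add_le (star s₁ * s₁ - q) q
    rw [sub_add_cancel] at this; linarith
  have g2 : ‖star s₂ * s₂‖ ≤ ‖q‖ + η := by
    have := norm_add_le (star s₂ * s₂ - q) q
    rw [sub_add_cancel] at this; linarith
  have n1 : ‖s₁‖ * ‖s₁‖ ≤ ‖q‖ + η := by rwa [← CStarRing.norm_star_mul_self]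
  have n2 : ‖s₂‖ * ‖s₂‖ ≤ ‖q‖ + η := by rwa [← CStarRing.norm_star_mul_self]
  have h21 : ‖star s₂ * s₁‖ ≤ η := by
    have : star s₂ * s₁ = star (star s₁ * s₂) := by rw [star_mul, star_star]
    rw [this, norm_star]; exact h12
  set M : U := s₁ * (star s₁ * s₁) * star s₁ + (4 : ℝ) • (s₂ * (star s₂ * s₂) * star s₂) with hM
  set R : U := (2 : ℝ) • (s₁ * (star s₁ * s₂) * star s₂) +
    (2 : ℝ) • (s₂ * (star s₂ * s₁) * star s₁) with hR
  have hMR : h * h = M + R := by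
    rw [hh, hM, hR]
    simp only [add_mul, mul_add, smul_mul_assoc, mul_smul_comm, mul_assoc]
    module
  have c1 : s₁ * (star s₁ * s₁) * star s₁ ≤ (‖q‖ + η) • (s₁ * star s₁) :=
    (CStarAlgebra.star_right_conjugate_le_norm_smul (hb := .star_mul_self s₁)).trans
      (smul_le_smul_of_nonneg_right g1 (mul_star_self_nonneg _))
  have c2 : s₂ * (star s₂ * s₂) * star s₂ ≤ (‖q‖ + η) • (s₂ * star s₂) :=
    (CStarAlgebra.star_right_conjugate_le_norm_smul (hb := .star_mul_self s₂)).trans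
      (smul_le_smul_of_nonneg_right g2 (mul_star_self_nonneg _))
  have hpos : 0 ≤ ‖q‖ + η := by positivity
  have hM1 : M ≤ (2 * (‖q‖ + η)) • h := by
    have e1 : (2 * (‖q‖ + η)) • h = (2 * (‖q‖ + η)) • (s₁ * star s₁) +
        (4 * (‖q‖ + η)) • (s₂ * star s₂) := by
      rw [hh, smul_add, smul_smul]; congr 2; ring
    rw [e1, hM]
    refine add_le_add (c1.trans (smul_le_smul_of_nonneg_right (by linarith)
      (mul_star_self_nonneg _))) ?_
    have := smul_le_smul_of_nonneg_left c2 (show (0 : ℝ) ≤ 4 by norm_num)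
    rwa [smul_smul] at this
  have hM0 : 0 ≤ M := by
    refine add_nonneg ?_ (smul_nonneg (by norm_num) ?_)
    · have := star_right_conjugate_nonneg (star_mul_self_nonneg s₁) s₁
      exact this
    · exact star_right_conjugate_nonneg (star_mul_self_nonneg s₂) s₂
  have hM2 : ‖M‖ ≤ 2 * (‖q‖ + η) * ‖h‖ := by
    have := CStarAlgebra.norm_le_norm_of_nonneg_of_le hM0 hM1
    rwa [norm_smul, Real.norm_of_nonneg (by positivity)] at this
  have hp : ‖s₁‖ * ‖s₂‖ ≤ ‖q‖ + η := by nlinarith [sq_nonneg (‖s₁‖ - ‖s₂‖)]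
  have r1 : ‖s₁ * (star s₁ * s₂) * star s₂‖ ≤ η * (‖q‖ + η) := by
    calc _ ≤ ‖s₁ * (star s₁ * s₂)‖ * ‖star s₂‖ := norm_mul_le _ _
      _ ≤ ‖s₁‖ * ‖star s₁ * s₂‖ * ‖star s₂‖ := by gcongr; exact norm_mul_le _ _
      _ ≤ ‖s₁‖ * η * ‖s₂‖ := by rw [norm_star s₂]; gcongr
      _ = η * (‖s₁‖ * ‖s₂‖) := by ring
      _ ≤ _ := by gcongr
  have r2 : ‖s₂ * (star s₂ * s₁) * star s₁‖ ≤ η * (‖q‖ + η) := by
    calc _ ≤ ‖s₂ * (star s₂ * s₁)‖ * ‖star s₁‖ := norm_mul_le _ _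
      _ ≤ ‖s₂‖ * ‖star s₂ * s₁‖ * ‖star s₁‖ := by gcongr; exact norm_mul_le _ _
      _ ≤ ‖s₂‖ * η * ‖s₁‖ := by rw [norm_star s₁]; gcongr
      _ = η * (‖s₁‖ * ‖s₂‖) := by ring
      _ ≤ _ := by gcongr
  have hR1 : ‖R‖ ≤ 4 * η * (‖q‖ + η) := by
    calc _ ≤ ‖(2 : ℝ) • (s₁ * (star s₁ * s₂) * star s₂)‖ +
          ‖(2 : ℝ) • (s₂ * (star s₂ * s₁) * star s₁)‖ := norm_add_le _ _
      _ = 2 * ‖s₁ * (star s₁ * s₂) * star s₂‖ + 2 * ‖s₂ * (star s₂ * s₁) * star s₁‖ := by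
          rw [norm_smul, norm_smul]; norm_num
      _ ≤ _ := by linarith
  calc ‖h‖ * ‖h‖ = ‖M + R‖ := by rw [hsq, hMR]
    _ ≤ ‖M‖ + ‖R‖ := norm_add_le _ _
    _ ≤ _ := by linarith

/-- the numerical part: the lengths of `q` and of the multiple -/
theorem numbers {α β l μ a₂ a₃ b₁ b₂ η : ℝ} (hη0 : 0 < η) (hη : η ≤ 1 / 1000000)
    (hα0 : 0 ≤ α) (hα1 : α ≤ 1 + η) (hβ1 : β ≤ 1 + η) (hab : 1 ≤ α + β + η)
    (hμ0 : 0 ≤ μ) (a2l : -η ≤ a₂ - α) (a3l : -η ≤ a₃ - α)
    (b1l : -η ≤ b₁ - β) (b1u : b₁ - β ≤ η) (b2l : -η ≤ b₂ - β)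
    (hla : 2 * a₂ ≤ l) (hlb : 1 / 2 * b₁ ≤ l)
    (hμ1 : μ * μ ≤ 2 * (α + η) * μ + 4 * η * (α + η))
    (hc : l * b₂ ≤ μ * b₂ + 1 / 2 * (η * η))
    (hc' : l * a₃ ≤ 1 / 2 * b₁ * a₃ + 3 * (η * η)) :
    19 / 100 ≤ α ∧ α ≤ 26 / 100 ∧ l ≤ 2 * α + 12 / 1000 ∧ l ≤ 53 / 100 ∧ 2 * α - 2 * η ≤ l := by
  have hηη : η * η ≤ 1 / 1000000 * (1 / 1000000) :=
    mul_le_mul hη hη hη0.le (by norm_num)
  have hμ2 : μ ≤ 2 * α + 1 / 100 := by
    by_contra hcon
    push Not at hcon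
    have h1 : (1 / 100 : ℝ) * (9 / 1000) ≤ μ * (μ - 2 * α - 2 * η) :=
      mul_le_mul (by linarith) (by linarith) (by norm_num) hμ0
    have h2 : η * (α + η) ≤ 1 / 1000000 * 2 :=
      mul_le_mul hη (by linarith) (by linarith) (by norm_num)
    have h3 : μ * (μ - 2 * α - 2 * η) = μ * μ - 2 * (α + η) * μ := by ring
    have h4 : 4 * η * (α + η) = 4 * (η * (α + η)) := by ring
    linarith
  have hb2 : 1 / 1000 < b₂ := by
    by_contra hcon
    push Not at hcon
    have h1 : 998 / 1000 ≤ α := by linarith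
    have h2 : 199 / 100 ≤ l := by linarith
    have h3 : 99 / 100 ≤ a₃ := by linarith
    have h4 : b₁ ≤ 1 / 100 := by linarith
    have h5 : (1 : ℝ) * (99 / 100) ≤ (l - 1 / 2 * b₁) * a₃ :=
      mul_le_mul (by linarith) h3 (by norm_num) (by linarith)
    have h6 : (l - 1 / 2 * b₁) * a₃ = l * a₃ - 1 / 2 * b₁ * a₃ := by ring
    linarith
  have hlμ : l ≤ μ + 1 / 1000 := by
    by_contra hcon
    push Not at hcon
    have h5 : (1 / 1000 : ℝ) * (1 / 1000) ≤ (l - μ) * b₂ :=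
      mul_le_mul (by linarith) hb2.le (by norm_num) (by linarith)
    have h6 : (l - μ) * b₂ = l * b₂ - μ * b₂ := by ring
    linarith
  have ha3 : 1 / 1000 < a₃ := by
    by_contra hcon
    push Not at hcon
    have h1 : α ≤ 2 / 1000 := by linarith
    have h2 : 99 / 100 ≤ b₁ := by linarith
    linarith
  have hlb' : l ≤ 1 / 2 * b₁ + 1 / 1000 := by
    by_contra hcon
    push Not at hcon
    have h5 : (1 / 1000 : ℝ) * (1 / 1000) ≤ (l - 1 / 2 * b₁) * a₃ :=
      mul_le_mul (by linarith) ha3.le (by norm_num) (by linarith)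
    have h6 : (l - 1 / 2 * b₁) * a₃ = l * a₃ - 1 / 2 * b₁ * a₃ := by ring
    linarith
  refine ⟨?_, ?_, ?_, ?_, ?_⟩ <;> linarith

/-- evaluation of an inequality at the top of the spectrum -/
theorem eval_top [Nontrivial U] {q : U} (hq : 0 ≤ q) {l c r : ℝ}
    (hG : c • (l • q - q * q) - ((l * l) • q - (2 * l) • (q * q) + q * q * q) ≤ r • (1 : U)) :
    ‖q‖ * (l - ‖q‖) * (c - (l - ‖q‖)) ≤ r := by
  have i1 : cfc (fun t : ℝ => t) q = q := cfc_id' ℝ q
  have i2 : cfc (fun t : ℝ => t * t) q = q * q := by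
    rw [cfc_mul (fun t : ℝ => t) (fun t : ℝ => t) q, i1]
  have i3 : cfc (fun t : ℝ => t * t * t) q = q * q * q := by
    rw [cfc_mul (fun t : ℝ => t * t) (fun t : ℝ => t) q, i1, i2]
  have i4 : cfc (fun t : ℝ => c * (l * t - t * t) - (l * l * t - 2 * l * (t * t) + t * t * t)) q =
      c • (l • q - q * q) - ((l * l) • q - (2 * l) • (q * q) + q * q * q) := by
    rw [cfc_sub (fun t : ℝ => c * (l * t - t * t))
        (fun t : ℝ => l * l * t - 2 * l * (t * t) + t * t * t) q,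
      cfc_const_mul c (fun t : ℝ => l * t - t * t) q,
      cfc_sub (fun t : ℝ => l * t) (fun t : ℝ => t * t) q,
      cfc_const_mul l (fun t : ℝ => t) q,
      cfc_add q (fun t : ℝ => l * l * t - 2 * l * (t * t)) (fun t : ℝ => t * t * t),
      cfc_sub (fun t : ℝ => l * l * t) (fun t : ℝ => 2 * l * (t * t)) q,
      cfc_const_mul (l * l) (fun t : ℝ => t) q,
      cfc_const_mul (2 * l) (fun t : ℝ => t * t) q, i1, i2, i3]
  rw [← i4, ← Algebra.algebraMap_eq_smul_one] at hG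
  have hG' := (cfc_le_algebraMap_iff _ _ _ (by fun_prop) (IsSelfAdjoint.of_nonneg hq)).1 hG
  have hfin := hG' ‖q‖ (CStarAlgebra.norm_mem_spectrum_of_nonneg hq)
  have g1 : c * (l * ‖q‖ - ‖q‖ * ‖q‖) -
      (l * l * ‖q‖ - 2 * l * (‖q‖ * ‖q‖) + ‖q‖ * ‖q‖ * ‖q‖) =
      ‖q‖ * (l - ‖q‖) * (c - (l - ‖q‖)) := by ring
  rwa [g1] at hfin

/-- the last step: evaluation at the top of the spectrum of `q` -/
theorem last_step [Nontrivial U] {q s₁ s₂ k e : U} {l c η : ℝ} (hη0 : 0 < η)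
    (hq : 0 ≤ q) (k0 : 0 ≤ k) (es1 : e * s₁ = s₁) (hn1 : ‖s₁‖ ≤ 1) (hn2 : ‖s₂‖ ≤ 1)
    (h11 : ‖star s₁ * s₁ - q‖ ≤ η) (h21 : ‖star s₂ * s₁‖ ≤ η)
    (hd : s₁ * star s₁ + (2 : ℝ) • (s₂ * star s₂) + k = l • e) (hkn : ‖k‖ ≤ l)
    (hkk : c • k ≤ k * k) (hl0 : 0 ≤ l) (hc0 : 0 ≤ c) (hc1 : c ≤ 1) (hlα : l + ‖q‖ ≤ 1) :
    ‖q‖ * (l - ‖q‖) * (c - (l - ‖q‖)) ≤ 11 * η := by
  set α : ℝ := ‖q‖ with hα
  have hα0 : 0 ≤ α := norm_nonneg _
  have hkk' : star k = k := (IsSelfAdjoint.of_nonneg k0).star_eq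
  have hqs : star q = q := (IsSelfAdjoint.of_nonneg hq).star_eq
  set g : U := star s₁ * s₁ with hg
  set Z : U := k * s₁ with hZ
  set Z0 : U := l • s₁ - s₁ * q with hZ0
  have hZZ : Z - Z0 = -(s₁ * (g - q)) - (2 : ℝ) • (s₂ * (star s₂ * s₁)) := by
    have h1 : k = l • e - (s₁ * star s₁ + (2 : ℝ) • (s₂ * star s₂)) := by rw [← hd]; abel
    rw [hZ, h1, hZ0, hg, sub_mul, smul_mul_assoc, es1, add_mul, smul_mul_assoc, mul_sub]
    simp only [mul_assoc]
    abel
  have hZn : ‖Z - Z0‖ ≤ 3 * η := by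
    rw [hZZ]
    refine (norm_sub_le _ _).trans ?_
    rw [norm_neg, norm_smul, Real.norm_of_nonneg (by norm_num)]
    have e1 : ‖s₁ * (g - q)‖ ≤ 1 * η := (norm_mul_le _ _).trans (mul_le_mul hn1 h11
      (norm_nonneg _) zero_le_one)
    have e2 : ‖s₂ * (star s₂ * s₁)‖ ≤ 1 * η := (norm_mul_le _ _).trans (mul_le_mul hn2 h21
      (norm_nonneg _) zero_le_one)
    linarith
  have hZ1 : ‖Z‖ ≤ 1 := by
    have : ‖Z‖ ≤ 1 * 1 := (norm_mul_le _ _).trans (mul_le_mul (by linarith) hn1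
      (norm_nonneg _) zero_le_one)
    linarith
  have hZ01 : ‖Z0‖ ≤ 1 := by
    have e1 : ‖l • s₁‖ ≤ l * 1 := by
      rw [norm_smul, Real.norm_of_nonneg hl0]; gcongr
    have e2 : ‖s₁ * q‖ ≤ 1 * α := (norm_mul_le _ _).trans (mul_le_mul_of_nonneg_right hn1 hα0)
    have := norm_sub_le (l • s₁) (s₁ * q)
    linarith
  set X : U := star s₁ * Z with hX
  set Y : U := star Z * Z with hY
  have hXY : c • X ≤ Y := by
    have h1 := star_left_conjugate_le_conjugate hkk s₁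
    have h2 : star s₁ * (c • k) * s₁ = c • X := by
      rw [hX, hZ, mul_smul_comm, smul_mul_assoc, mul_assoc]
    have h3 : star s₁ * (k * k) * s₁ = Y := by
      rw [hY, hZ, star_mul, hkk']; simp only [mul_assoc]
    rwa [h2, h3] at h1
  set P : U := l • q - q * q with hP
  set Q : U := (l * l) • q - (2 * l) • (q * q) + q * q * q with hQ
  have hXP : ‖X - P‖ ≤ 4 * η := by
    have e1 : X - P = star s₁ * (Z - Z0) + (l • (g - q) - (g - q) * q) := by
      have : star s₁ * Z0 = l • g - g * q := by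
        rw [hZ0, mul_sub, mul_smul_comm, ← mul_assoc, hg]
      rw [mul_sub, this, hX, hP, smul_sub, sub_mul]
      abel
    have e2 : ‖star s₁ * (Z - Z0)‖ ≤ 1 * (3 * η) := (norm_mul_le _ _).trans
      (mul_le_mul (by rwa [norm_star]) hZn (norm_nonneg _) zero_le_one)
    have e3 : ‖l • (g - q)‖ ≤ l * η := by
      rw [norm_smul, Real.norm_of_nonneg hl0]; gcongr
    have e4 : ‖(g - q) * q‖ ≤ η * α := (norm_mul_le _ _).trans (mul_le_mul_of_nonneg_right h11 hα0)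
    have e5 := norm_add_le (star s₁ * (Z - Z0)) (l • (g - q) - (g - q) * q)
    have e6 := norm_sub_le (l • (g - q)) ((g - q) * q)
    have e7 : (l + α) * η ≤ 1 * η := by gcongr
    have e8 : (l + α) * η = l * η + η * α := by ring
    rw [e1]
    linarith
  have hYQ : ‖Y - Q‖ ≤ 7 * η := by
    have e1 : Y - Q = star (Z - Z0) * Z + star Z0 * (Z - Z0) + ((l * l) • (g - q) -
        l • ((g - q) * q) - l • (q * (g - q)) + q * (g - q) * q) := by
      have h1 : star Z0 * Z0 = (l * l) • g - l • (g * q) - l • (q * g) + q * g * q := by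
        rw [hZ0, star_sub, star_smul, star_mul, hqs, hg]
        simp only [sub_mul, mul_sub, smul_mul_assoc, mul_smul_comm, mul_assoc, star_trivial]
        module
      have h2 : star (Z - Z0) * Z + star Z0 * (Z - Z0) = Y - star Z0 * Z0 := by
        rw [star_sub, sub_mul, mul_sub, hY]; abel
      rw [h2, h1, hQ]
      simp only [sub_mul, mul_sub, smul_sub, mul_assoc]
      module
    have e2 : ‖star (Z - Z0) * Z‖ ≤ 3 * η * 1 := (norm_mul_le _ _).trans
      (mul_le_mul (by rwa [norm_star]) hZ1 (norm_nonneg _) (by linarith))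
    have e3 : ‖star Z0 * (Z - Z0)‖ ≤ 1 * (3 * η) := (norm_mul_le _ _).trans
      (mul_le_mul (by rwa [norm_star]) hZn (norm_nonneg _) zero_le_one)
    have e4 : ‖(l * l) • (g - q)‖ ≤ l * l * η := by
      rw [norm_smul, Real.norm_of_nonneg (mul_nonneg hl0 hl0)]; gcongr
    have e5 : ‖(g - q) * q‖ ≤ η * α := (norm_mul_le _ _).trans (mul_le_mul_of_nonneg_right h11 hα0)
    have e6 : ‖q * (g - q)‖ ≤ α * η := (norm_mul_le _ _).trans (mul_le_mul_of_nonneg_left h11 hα0)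
    have e7 : ‖l • ((g - q) * q)‖ ≤ l * (η * α) := by
      rw [norm_smul, Real.norm_of_nonneg hl0]; gcongr
    have e8 : ‖l • (q * (g - q))‖ ≤ l * (α * η) := by
      rw [norm_smul, Real.norm_of_nonneg hl0]; gcongr
    have e9 : ‖q * (g - q) * q‖ ≤ α * η * α := (norm_mul_le _ _).trans
      (mul_le_mul_of_nonneg_right e6 hα0)
    have f1 := norm_add_le (star (Z - Z0) * Z + star Z0 * (Z - Z0)) ((l * l) • (g - q) -
        l • ((g - q) * q) - l • (q * (g - q)) + q * (g - q) * q)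
    have f2 := norm_add_le (star (Z - Z0) * Z) (star Z0 * (Z - Z0))
    have f3 := norm_add_le ((l * l) • (g - q) - l • ((g - q) * q) - l • (q * (g - q)))
      (q * (g - q) * q)
    have f4 := norm_sub_le ((l * l) • (g - q) - l • ((g - q) * q)) (l • (q * (g - q)))
    have f5 := norm_sub_le ((l * l) • (g - q)) (l • ((g - q) * q))
    have f6 : l * l * η + l * (η * α) + l * (α * η) + α * η * α = (l + α) * (l + α) * η := by ring
    have f7 : (l + α) * (l + α) * η ≤ 1 * η := by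
      gcongr
      have h1 : (l + α) * (l + α) ≤ 1 * 1 := mul_le_mul hlα hlα (by linarith) zero_le_one
      linarith
    rw [e1]
    linarith
  have hG : c • P - Q ≤ (11 * η) • (1 : U) := by
    have e1 : c • P - Q ≤ c • (P - X) + (Y - Q) := by
      have : c • P - Q = c • (P - X) + (Y - Q) - (Y - c • X) := by module
      rw [this]
      exact sub_le_self _ (sub_nonneg.2 hXY)
    have hXs : IsSelfAdjoint X := by
      rw [IsSelfAdjoint, hX, hZ, star_mul, star_mul, star_star, hkk', mul_assoc]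
    have hYs : IsSelfAdjoint Y := .star_mul_self Z
    have hPs : IsSelfAdjoint P := by
      rw [IsSelfAdjoint, hP, star_sub, star_smul, star_mul, hqs]; rfl
    have hQs : IsSelfAdjoint Q := by
      rw [IsSelfAdjoint, hQ]
      simp only [star_add, star_sub, star_smul, star_mul, hqs, star_trivial, mul_assoc]
    have e2 : IsSelfAdjoint (c • (P - X) + (Y - Q)) :=
      (IsSelfAdjoint.smul (IsSelfAdjoint.all c) (hPs.sub hXs)).add (hYs.sub hQs)
    have e3 := e2.le_algebraMap_norm_self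
    rw [Algebra.algebraMap_eq_smul_one] at e3
    refine e1.trans (e3.trans (smul_le_smul_of_nonneg_right ?_ zero_le_one))
    refine (norm_add_le _ _).trans ?_
    rw [norm_smul, Real.norm_of_nonneg hc0, norm_sub_rev P X]
    have : c * ‖X - P‖ ≤ 1 * (4 * η) := mul_le_mul hc1 hXP (norm_nonneg _) zero_le_one
    linarith
  exact eval_top hq hG

/-- The core: with `e` a projection, `q + f` close to `e`, three almost orthogonal copies of `q`
and two almost orthogonal copies of `f`, the element `s₁ s₁* + 2 s₂ s₂* + (1/2) t₁ t₁*` is not a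
multiple of `e`. -/
theorem core {e q f s₁ s₂ s₃ t₁ t₂ : U} {l : ℝ} {η : ℝ} (hη0 : 0 < η) (hη : η ≤ 1 / 1000000)
    (he : e * e = e) (hes : star e = e) (he0 : e ≠ 0) (hq : 0 ≤ q) (hf : 0 ≤ f)
    (hqe : star e * q * e = q) (hsum : ‖q + f - e‖ ≤ η)
    (es1 : e * s₁ = s₁) (es3 : e * s₃ = s₃) (et2 : e * t₂ = t₂) (te1 : t₁ * e = t₁)
    (h11 : ‖star s₁ * s₁ - q‖ ≤ η) (h22 : ‖star s₂ * s₂ - q‖ ≤ η) (h33 : ‖star s₃ * s₃ - q‖ ≤ η)
    (h12 : ‖star s₁ * s₂‖ ≤ η) (h13 : ‖star s₁ * s₃‖ ≤ η) (h23 : ‖star s₂ * s₃‖ ≤ η)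
    (k11 : ‖star t₁ * t₁ - f‖ ≤ η) (k22 : ‖star t₂ * t₂ - f‖ ≤ η) (k12 : ‖star t₁ * t₂‖ ≤ η)
    (hd : s₁ * star s₁ + (2 : ℝ) • (s₂ * star s₂) + (1 / 2 : ℝ) • (t₁ * star t₁) = l • e) :
    False := by
  have hnt : Nontrivial U := ⟨⟨e, 0, he0⟩⟩
  have hpe : 0 ≤ e := by
    have := star_mul_self_nonneg e
    rwa [hes, he] at this
  have hne : ‖e‖ = 1 := by
    have h1 := CStarRing.norm_star_mul_self (x := e)
    rw [hes, he] at h1
    have h2 : ‖e‖ ≠ 0 := norm_ne_zero_iff.2 he0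
    have h3 : ‖e‖ * (‖e‖ - 1) = 0 := by linarith
    rcases mul_eq_zero.1 h3 with h | h
    · exact absurd h h2
    · linarith
  set α : ℝ := ‖q‖ with hα
  set β : ℝ := ‖f‖ with hβ
  have hα0 : 0 ≤ α := norm_nonneg _
  have hβ0 : 0 ≤ β := norm_nonneg _
  have hqf : ‖q + f‖ ≤ 1 + η := by
    have := norm_add_le (q + f - e) e
    rw [sub_add_cancel, hne] at this
    linarith
  have hα1 : α ≤ 1 + η :=
    (CStarAlgebra.norm_le_norm_of_nonneg_of_le hq (le_add_of_nonneg_right hf)).trans hqf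
  have hβ1 : β ≤ 1 + η :=
    (CStarAlgebra.norm_le_norm_of_nonneg_of_le hf (le_add_of_nonneg_left hq)).trans hqf
  have hab : 1 ≤ α + β + η := by
    have h1 : ‖e‖ ≤ ‖q + f‖ + ‖q + f - e‖ := by
      have := norm_sub_le (q + f) (q + f - e)
      rwa [sub_sub_cancel] at this
    have h2 := norm_add_le q f
    rw [hne] at h1
    linarith
  set h : U := s₁ * star s₁ + (2 : ℝ) • (s₂ * star s₂) with hh
  set k : U := (1 / 2 : ℝ) • (t₁ * star t₁) with hk
  have h0 : 0 ≤ h := add_nonneg (mul_star_self_nonneg _)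
    (smul_nonneg (by norm_num) (mul_star_self_nonneg _))
  have k0 : 0 ≤ k := smul_nonneg (by norm_num) (mul_star_self_nonneg _)
  have hl0 : 0 ≤ l := by
    by_contra hneg
    push Not at hneg
    have h1 : 0 ≤ l • e := by rw [← hd]; exact add_nonneg h0 k0
    have h2 : l • e ≤ 0 := smul_nonpos_of_nonpos_of_nonneg hneg.le hpe
    have h3 : l • e = 0 := le_antisymm h2 h1
    rcases smul_eq_zero.1 h3 with h | h
    · exact hneg.ne h
    · exact he0 h
  have hle : ‖l • e‖ = l := by rw [norm_smul, hne, mul_one, Real.norm_of_nonneg hl0]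
  set a₁ : ℝ := ‖s₁‖ * ‖s₁‖ with ha₁
  set a₂ : ℝ := ‖s₂‖ * ‖s₂‖ with ha₂
  set a₃ : ℝ := ‖s₃‖ * ‖s₃‖ with ha₃
  set b₁ : ℝ := ‖t₁‖ * ‖t₁‖ with hb₁
  set b₂ : ℝ := ‖t₂‖ * ‖t₂‖ with hb₂
  obtain ⟨a1l, a1u⟩ := abs_le.1 (sq_norm_near h11)
  obtain ⟨a2l, a2u⟩ := abs_le.1 (sq_norm_near h22)
  obtain ⟨a3l, a3u⟩ := abs_le.1 (sq_norm_near h33)
  obtain ⟨b1l, b1u⟩ := abs_le.1 (sq_norm_near k11)
  obtain ⟨b2l, b2u⟩ := abs_le.1 (sq_norm_near k22)
  rw [← ha₁] at a1l a1u
  rw [← ha₂] at a2l a2u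
  rw [← ha₃] at a3l a3u
  rw [← hb₁] at b1l b1u
  rw [← hb₂] at b2l b2u
  have hh_le : h ≤ l • e := by rw [← hd]; exact le_add_of_nonneg_right k0
  have hk_le : k ≤ l • e := by rw [← hd]; exact le_add_of_nonneg_left h0
  have hla : 2 * a₂ ≤ l := by
    have h1 : (2 : ℝ) • (s₂ * star s₂) ≤ l • e :=
      (le_add_of_nonneg_left (mul_star_self_nonneg _)).trans hh_le
    have h2 := CStarAlgebra.norm_le_norm_of_nonneg_of_le
      (smul_nonneg (by norm_num) (mul_star_self_nonneg _)) h1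
    rw [hle, norm_smul, CStarRing.norm_self_mul_star] at h2
    norm_num at h2
    exact h2
  have hlb : 1 / 2 * b₁ ≤ l := by
    have h2 := CStarAlgebra.norm_le_norm_of_nonneg_of_le k0 hk_le
    rw [hle, hk, norm_smul, CStarRing.norm_self_mul_star] at h2
    norm_num at h2
    linarith
  set μ : ℝ := ‖h‖ with hμ
  have hμ0 : 0 ≤ μ := norm_nonneg _
  have hμ1 : μ * μ ≤ 2 * (α + η) * μ + 4 * η * (α + η) := norm_h_le hη0.le h11 h22 h12
  have hc : l * b₂ ≤ μ * b₂ + 1 / 2 * (η * η) := by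
    have e1 : l • (star t₂ * t₂) = star t₂ * h * t₂ +
        (1 / 2 : ℝ) • (star (star t₁ * t₂) * (star t₁ * t₂)) := by
      have e2 : star t₂ * (l • e) * t₂ = l • (star t₂ * t₂) := by
        rw [mul_smul_comm, smul_mul_assoc, mul_assoc, et2]
      rw [← e2, ← hd, hk, star_mul, star_star]
      simp only [add_mul, mul_add, smul_mul_assoc, mul_smul_comm, mul_assoc]
    have e2 : ‖l • (star t₂ * t₂)‖ = l * b₂ := by
      rw [norm_smul, Real.norm_of_nonneg hl0, CStarRing.norm_star_mul_self]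
    rw [← e2, e1]
    refine (norm_add_le _ _).trans (add_le_add (norm_conj_le _ _) ?_)
    rw [norm_smul, CStarRing.norm_star_mul_self, Real.norm_of_nonneg (by norm_num)]
    gcongr
  have hc' : l * a₃ ≤ 1 / 2 * b₁ * a₃ + 3 * (η * η) := by
    have e1 : l • (star s₃ * s₃) = star s₃ * k * s₃ +
        (star (star s₁ * s₃) * (star s₁ * s₃) +
          (2 : ℝ) • (star (star s₂ * s₃) * (star s₂ * s₃))) := by
      have e2 : star s₃ * (l • e) * s₃ = l • (star s₃ * s₃) := by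
        rw [mul_smul_comm, smul_mul_assoc, mul_assoc, es3]
      rw [← e2, ← hd, hh, star_mul, star_star, star_mul, star_star]
      simp only [add_mul, mul_add, smul_mul_assoc, mul_smul_comm, mul_assoc]
      abel
    have e2 : ‖l • (star s₃ * s₃)‖ = l * a₃ := by
      rw [norm_smul, Real.norm_of_nonneg hl0, CStarRing.norm_star_mul_self]
    have e3 : ‖k‖ = 1 / 2 * b₁ := by
      rw [hk, norm_smul, CStarRing.norm_self_mul_star, Real.norm_of_nonneg (by norm_num)]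
    have e4 : ‖star s₃ * k * s₃‖ ≤ 1 / 2 * b₁ * a₃ := by
      have := norm_conj_le s₃ k
      rwa [e3] at this
    have e5 : ‖star (star s₁ * s₃) * (star s₁ * s₃)‖ ≤ η * η := by
      rw [CStarRing.norm_star_mul_self]; gcongr
    have e6 : ‖(2 : ℝ) • (star (star s₂ * s₃) * (star s₂ * s₃))‖ ≤ 2 * (η * η) := by
      rw [norm_smul, CStarRing.norm_star_mul_self, Real.norm_of_nonneg (by norm_num)]; gcongr
    rw [← e2, e1]
    refine (norm_add_le _ _).trans ?_
    have := norm_add_le (star (star s₁ * s₃) * (star s₁ * s₃))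
      ((2 : ℝ) • (star (star s₂ * s₃) * (star s₂ * s₃)))
    linarith
  obtain ⟨hα3, hα2, hlα, hl1, hlα'⟩ := numbers hη0 hη hα0 hα1 hβ1 hab hμ0 a2l a3l b1l
    b1u b2l hla hlb hμ1 hc hc'
  -- the last step
  set c : ℝ := (1 - α - 2 * η) / 2 with hcdef
  have hgf : (1 - α) • e ≤ f + η • (1 : U) := by
    have h1 : q ≤ α • e := by
      have h2 := CStarAlgebra.star_left_conjugate_le_norm_smul (a := e) (b := q)
        (.of_nonneg hq)
      rwa [hqe, hes, he] at h2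
    have h2 : e - (q + f) ≤ η • (1 : U) := by
      have h3 : IsSelfAdjoint (e - (q + f)) :=
        (IsSelfAdjoint.of_nonneg hpe).sub (IsSelfAdjoint.of_nonneg (add_nonneg hq hf))
      have h4 := h3.le_algebraMap_norm_self
      rw [Algebra.algebraMap_eq_smul_one] at h4
      refine h4.trans (smul_le_smul_of_nonneg_right ?_ zero_le_one)
      rwa [norm_sub_rev]
    calc (1 - α) • e = (e - (q + f)) + (q - α • e) + f := by rw [sub_smul, one_smul]; abel
      _ ≤ η • (1 : U) + 0 + f := by gcongr; exact sub_nonpos.2 h1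
      _ = f + η • (1 : U) := by abel
  have hft : f ≤ star t₁ * t₁ + η • (1 : U) := by
    have h3 : IsSelfAdjoint (f - star t₁ * t₁) := (IsSelfAdjoint.of_nonneg hf).sub (.star_mul_self t₁)
    have h4 := h3.le_algebraMap_norm_self
    rw [Algebra.algebraMap_eq_smul_one] at h4
    have h5 : f - star t₁ * t₁ ≤ η • (1 : U) := h4.trans
      (smul_le_smul_of_nonneg_right (by rwa [norm_sub_rev]) zero_le_one)
    calc f = (f - star t₁ * t₁) + star t₁ * t₁ := by abel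
      _ ≤ η • (1 : U) + star t₁ * t₁ := by gcongr
      _ = _ := by abel
  have hkk : c • k ≤ k * k := by
    have h1 : (1 - α) • e ≤ star t₁ * t₁ + (2 * η) • (1 : U) := by
      calc _ ≤ f + η • (1 : U) := hgf
        _ ≤ star t₁ * t₁ + η • (1 : U) + η • (1 : U) := by gcongr
        _ = _ := by rw [add_assoc, ← add_smul]; congr 2; ring
    have h2 := star_right_conjugate_le_conjugate h1 t₁
    have h3 : t₁ * ((1 - α) • e) * star t₁ = (1 - α) • (t₁ * star t₁) := by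
      rw [mul_smul_comm, smul_mul_assoc, te1]
    have h4 : t₁ * (star t₁ * t₁ + (2 * η) • (1 : U)) * star t₁ =
        t₁ * star t₁ * (t₁ * star t₁) + (2 * η) • (t₁ * star t₁) := by
      rw [mul_add, mul_smul_comm, mul_one, add_mul, smul_mul_assoc]; simp only [mul_assoc]
    rw [h3, h4] at h2
    have h5 : (1 - α - 2 * η) • (t₁ * star t₁) ≤ t₁ * star t₁ * (t₁ * star t₁) := by
      rw [sub_smul]
      exact sub_le_iff_le_add.2 h2
    have h6 := smul_le_smul_of_nonneg_left h5 (show (0 : ℝ) ≤ 1 / 4 by norm_num)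
    have h7 : c • k = (1 / 4 : ℝ) • ((1 - α - 2 * η) • (t₁ * star t₁)) := by
      rw [hk, hcdef, smul_smul, smul_smul]; congr 1; ring
    have h8 : k * k = (1 / 4 : ℝ) • (t₁ * star t₁ * (t₁ * star t₁)) := by
      rw [hk, smul_mul_assoc, mul_smul_comm, smul_smul]; norm_num
    rw [h7, h8]
    exact h6
  have hn1 : ‖s₁‖ ≤ 1 := by
    by_contra hcon
    push Not at hcon
    have : 1 * 1 ≤ a₁ := mul_le_mul hcon.le hcon.le zero_le_one (norm_nonneg _)
    linarith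
  have hn2 : ‖s₂‖ ≤ 1 := by
    by_contra hcon
    push Not at hcon
    have : 1 * 1 ≤ a₂ := mul_le_mul hcon.le hcon.le zero_le_one (norm_nonneg _)
    linarith
  have hkn : ‖k‖ ≤ l := by
    have h2 := CStarAlgebra.norm_le_norm_of_nonneg_of_le k0 hk_le
    rwa [hle] at h2
  have h21 : ‖star s₂ * s₁‖ ≤ η := by
    have : star s₂ * s₁ = star (star s₁ * s₂) := by rw [star_mul, star_star]
    rw [this, norm_star]; exact h12
  have hfin := last_step hη0 hq k0 es1 hn1 hn2 h11 h21 hd hkn hkk hl0 (by rw [hcdef]; linarith)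
    (by rw [hcdef]; linarith) (by linarith)
  rw [← hα] at hfin
  have g2 : (19 / 100 : ℝ) * (18 / 100) ≤ α * (l - α) :=
    mul_le_mul hα3 (by linarith) (by norm_num) hα0
  have g3 : (9 / 100 : ℝ) ≤ c - (l - α) := by rw [hcdef]; linarith
  have g4 : (19 / 100 : ℝ) * (18 / 100) * (9 / 100) ≤ α * (l - α) * (c - (l - α)) :=
    mul_le_mul g2 g3 (by norm_num) (le_trans (by norm_num) g2)
  linarith

end

end Vale.Agent.P133.H185
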