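import Vale.Agent.P133.H185.Core
import Vale.Agent.P133.R2.H28.Base
import Vale.Agent.P133.R2.H474.NS4
import Vale.Agent.P133.H832.ChainF

/-!
P133 (helper185): the key lemma. If the projection `e` lies in the closed ideal of `c₁ + c₂` and all
multiples of `c₁` and of `c₂` are below `e`, the corner of `e` has two orthogonal positive elements,
each of which generates `e`.
-/

open scoped ComplexOrder

namespace Vale.Agent.P133.H185

open Vale.Agent.P133 Vale.Agent.P133.H832 Vale.Agent.P133.R2.H28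

universe u v

section

variable {A : Type u} [NonUnitalCStarAlgebra A]

/-- `core` in the image of a star homomorphism -/
theorem core_hom {U : Type v} [CStarAlgebra U] [PartialOrder U] [StarOrderedRing U]
    (ψ : A →⋆ₙₐ[ℂ] U) {e q f : A} {s : Fin 3 → A} {t : Fin 2 → A} {l : ℝ} {η : ℝ}
    (hη0 : 0 < η) (hη : η ≤ 1 / 1000000) (he : e * e = e) (hes : star e = e)
    (he0 : ψ e ≠ 0) (hq : 0 ≤ ψ q) (hf : 0 ≤ ψ f)
    (hqe : e * q * e = q) (hsum : ‖q + f - e‖ ≤ η)
    (es : ∀ i, e * s i = s i) (et : ∀ i, e * t i = t i) (te : ∀ i, t i * e = t i)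
    (hs : ∀ i j, ‖star (s i) * s j - (if i = j then q else 0)‖ ≤ η)
    (ht : ∀ i j, ‖star (t i) * t j - (if i = j then f else 0)‖ ≤ η)
    (hd : ψ (s 0 * star (s 0) + (2 : ℝ) • (s 1 * star (s 1)) + (1 / 2 : ℝ) • (t 0 * star (t 0))) =
      l • ψ e) : False := by
  have hψ : ∀ x : A, ‖ψ x‖ ≤ ‖x‖ := NonUnitalStarAlgHom.norm_apply_le ψ
  have hψr : ∀ (r : ℝ) (x : A), ψ (r • x) = r • ψ x := fun r x => by
    rw [← Complex.coe_smul, map_smul, Complex.coe_smul]
  refine core (e := ψ e) (q := ψ q) (f := ψ f) (s₁ := ψ (s 0)) (s₂ := ψ (s 1)) (s₃ := ψ (s 2))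
    (t₁ := ψ (t 0)) (t₂ := ψ (t 1)) (l := l) hη0 hη ?_ ?_ he0 hq hf ?_ ?_ ?_ ?_ ?_ ?_ ?_ ?_ ?_ ?_
    ?_ ?_ ?_ ?_ ?_ ?_
  · rw [← map_mul, he]
  · rw [← map_star, hes]
  · rw [← map_star, hes, ← map_mul, ← map_mul, hqe]
  · rw [← map_add, ← map_sub]; exact (hψ _).trans hsum
  · rw [← map_mul, es]
  · rw [← map_mul, es]
  · rw [← map_mul, et]
  · rw [← map_mul, te]
  · have := (hψ _).trans (hs 0 0)
    simpa [map_star] using this
  · have := (hψ _).trans (hs 1 1)
    simpa [map_star] using this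
  · have := (hψ _).trans (hs 2 2)
    simpa [map_star] using this
  · have := (hψ _).trans (hs 0 1)
    simpa [map_star] using this
  · have := (hψ _).trans (hs 0 2)
    simpa [map_star] using this
  · have := (hψ _).trans (hs 1 2)
    simpa [map_star] using this
  · have := (hψ _).trans (ht 0 0)
    simpa [map_star] using this
  · have := (hψ _).trans (ht 1 1)
    simpa [map_star] using this
  · have := (hψ _).trans (ht 0 1)
    simpa [map_star] using this
  · rw [← hd, map_add, map_add, hψr, hψr, map_mul, map_mul, map_mul, map_star, map_star, map_star]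

/-- `core` modulo a closed ideal -/
theorem core_ideal [PartialOrder A] [StarOrderedRing A] {e q f : A} {s : Fin 3 → A} {t : Fin 2 → A}
    {η : ℝ} (hη0 : 0 < η) (hη : η ≤ 1 / 1000000) (he : e * e = e) (hes : star e = e)
    (hq : 0 ≤ q) (hf : 0 ≤ f) (hqe : e * q * e = q) (hsum : ‖q + f - e‖ ≤ η)
    (es : ∀ i, e * s i = s i) (et : ∀ i, e * t i = t i) (te : ∀ i, t i * e = t i)
    (hs : ∀ i j, ‖star (s i) * s j - (if i = j then q else 0)‖ ≤ η)
    (ht : ∀ i j, ‖star (t i) * t j - (if i = j then f else 0)‖ ≤ η)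
    {P : Submodule ℂ A} (hP : IsClosedIdeal P) (heP : e ∉ P) (l : ℝ) :
    (s 0 * star (s 0) + (2 : ℝ) • (s 1 * star (s 1)) + (1 / 2 : ℝ) • (t 0 * star (t 0))) * e -
      l • e ∉ P := by
  intro hmem
  obtain ⟨B, i1, -, -, φ, -, hk⟩ := hP.quot
  let _ : PartialOrder (Unitization ℂ B) := CStarAlgebra.spectralOrder _
  have _ : StarOrderedRing (Unitization ℂ B) := CStarAlgebra.spectralOrderedRing _
  let ψ : A →⋆ₙₐ[ℂ] Unitization ℂ B := (Unitization.inrNonUnitalStarAlgHom ℂ B).comp φ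
  have hψk : ∀ x, ψ x = 0 ↔ x ∈ P := by
    intro x
    rw [← hk]
    show (Unitization.inr (φ x) : Unitization ℂ B) = 0 ↔ _
    exact ⟨fun h => Unitization.inr_injective (by rw [h, Unitization.inr_zero]), fun h => by
      rw [h, Unitization.inr_zero]⟩
  have hpos : ∀ x : A, 0 ≤ x → 0 ≤ ψ x := by
    intro x hx
    have h1 : x = star (CFC.sqrt x) * CFC.sqrt x := by
      rw [(IsSelfAdjoint.of_nonneg (CFC.sqrt_nonneg x)).star_eq, CFC.sqrt_mul_sqrt_self x hx]
    rw [h1, map_mul, map_star]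
    exact star_mul_self_nonneg _
  have hψr : ∀ (r : ℝ) (x : A), ψ (r • x) = r • ψ x := fun r x => by
    rw [← Complex.coe_smul, map_smul, Complex.coe_smul]
  refine core_hom (l := l) ψ hη0 hη he hes (fun h => heP ((hψk e).1 h)) (hpos q hq) (hpos f hf) hqe
    hsum es et te hs ht ?_
  have hse : ∀ i, star (s i) * e = star (s i) := fun i => by
    have := congrArg star (es i)
    rwa [star_mul, hes] at this
  have hte : ∀ i, star (t i) * e = star (t i) := fun i => by
    have := congrArg star (et i)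
    rwa [star_mul, hes] at this
  have h1 : (s 0 * star (s 0) + (2 : ℝ) • (s 1 * star (s 1)) +
      (1 / 2 : ℝ) • (t 0 * star (t 0))) * e =
      s 0 * star (s 0) + (2 : ℝ) • (s 1 * star (s 1)) + (1 / 2 : ℝ) • (t 0 * star (t 0)) := by
    simp only [add_mul, smul_mul_assoc, mul_assoc, hse, hte]
  rw [h1] at hmem
  have h2 := (hψk _).2 hmem
  rwa [map_sub, hψr l, sub_eq_zero] at h2

/-- rows in a corner from `InfB` -/
theorem rows [PartialOrder A] [StarOrderedRing A] {e c : A} (he : e * e = e) (hes : star e = e)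
    (hc : e * c * e = c) (h : InfB e c) (m : ℕ) {η : ℝ} (hη : 0 < η) :
    ∃ s : Fin m → A, (∀ i, e * s i = s i) ∧ (∀ i, s i * e = s i) ∧
      ∀ i j, ‖star (s i) * s j - (if i = j then c else 0)‖ ≤ η := by
  obtain ⟨r, hr⟩ := h.2 m η hη
  have hen : ‖e‖ ≤ 1 := by
    have h1 := CStarRing.norm_star_mul_self (x := e)
    rw [hes, he] at h1
    by_contra hcon
    push Not at hcon
    nlinarith
  refine ⟨fun i => e * r i * e, fun i => ?_, fun i => ?_, fun i j => ?_⟩
  · rw [← mul_assoc, ← mul_assoc, he]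
  · rw [mul_assoc, he]
  · have h1 : star (e * r i * e) * (e * r j * e) - (if i = j then c else 0) =
        e * (star (r i) * e * r j - (if i = j then c else 0)) * e := by
      have h2 : e * (if i = j then c else 0) * e = if i = j then c else 0 := by
        split_ifs
        · exact hc
        · simp
      rw [mul_sub, sub_mul, h2]
      congr 1
      rw [star_mul, star_mul, hes]
      calc _ = e * (star (r i) * (e * e) * (r j * e)) := by
            simp only [mul_assoc]
        _ = _ := by rw [he]; simp only [mul_assoc]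
    rw [h1]
    calc _ ≤ ‖e * (star (r i) * e * r j - (if i = j then c else 0))‖ * ‖e‖ := norm_mul_le _ _
      _ ≤ ‖e‖ * ‖star (r i) * e * r j - (if i = j then c else 0)‖ * ‖e‖ := by
          gcongr; exact norm_mul_le _ _
      _ ≤ 1 * η * 1 := by
          gcongr
          exact (hr i j).le
      _ = η := by ring

/-- a projection is in the ideal of its cut -/
theorem inId_proj [PartialOrder A] [StarOrderedRing A] {e b : A} (he : e * e = e) (hpe : 0 ≤ e)
    (hI : InId b (R2.H28.cut e (1 / 2))) : InId b e := by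
  have hes' : star e = e := (IsSelfAdjoint.of_nonneg hpe).star_eq
  obtain ⟨I, hIc, hIb⟩ := isClosedIdeal_inId b
  obtain ⟨B, i1, -, -, φ, -, hk⟩ := hIc.quot
  have h1 : φ (R2.H28.cut e (1 / 2)) = 0 := (hk _).2 ((hIb _).2 hI)
  have h2 : ‖φ e‖ ≤ 1 / 2 := by
    have h3 : φ e = -φ (R2.H28.cut e (1 / 2) - e) := by rw [map_sub, h1]; abel
    rw [h3, norm_neg]
    exact (NonUnitalStarAlgHom.norm_apply_le φ _).trans (norm_cut_sub_le hpe (by norm_num))
  have h3 : ‖φ e‖ = ‖φ e‖ * ‖φ e‖ := by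
    rw [← CStarRing.norm_star_mul_self, ← map_star, hes', ← map_mul, he]
  have h4 : ‖φ e‖ = 0 := by
    have h5 : ‖φ e‖ * (1 - ‖φ e‖) = 0 := by linarith
    rcases mul_eq_zero.1 h5 with h | h
    · exact h
    · linarith
  exact (hIb e).1 ((hk e).1 (norm_eq_zero.1 h4))

/-- The key lemma. -/
theorem key_lemma [PartialOrder A] [StarOrderedRing A] {e c₁ c₂ : A} (he : e * e = e)
    (hes : IsSelfAdjoint e) (h1 : 0 ≤ c₁) (h2 : 0 ≤ c₂) (i1 : InfB e c₁) (i2 : InfB e c₂)
    (hI : InId (c₁ + c₂) e) :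
    ∃ b₁ b₂ : A, 0 ≤ b₁ ∧ 0 ≤ b₂ ∧ b₁ * b₂ = 0 ∧ b₁ ∈ Her e ∧ b₂ ∈ Her e ∧
      InId b₁ e ∧ InId b₂ e := by
  have hes' : star e = e := hes.star_eq
  have hpe : 0 ≤ e := by
    have := star_mul_self_nonneg e
    rwa [hes', he] at this
  have hen : ‖e‖ ≤ 1 := by
    have h1 := CStarRing.norm_star_mul_self (x := e)
    rw [hes', he] at h1
    by_contra hcon
    push Not at hcon
    nlinarith
  obtain ⟨-, hsub⟩ := subId_of_inId' (add_nonneg h1 h2) hpe hI
  obtain ⟨m, t, ht⟩ := hsub (1 / 1000000) (by norm_num)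
  have hpos : ∀ c : A, 0 ≤ c → ∀ k, 0 ≤ star (t k * e) * c * (t k * e) := fun c hc k =>
    star_left_conjugate_nonneg hc _
  set q : A := ∑ k, star (t k * e) * c₂ * (t k * e) with hqd
  set f : A := ∑ k, star (t k * e) * c₁ * (t k * e) with hfd
  have hq0 : 0 ≤ q := Finset.sum_nonneg fun k _ => hpos c₂ h2 k
  have hf0 : 0 ≤ f := Finset.sum_nonneg fun k _ => hpos c₁ h1 k
  have hqi : InfB e q := i2.sub ⟨hq0, fun ε hε => ⟨m, fun k => t k * e, by
    rw [← hqd, sub_self, norm_zero]; exact hε⟩⟩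
  have hfi : InfB e f := i1.sub ⟨hf0, fun ε hε => ⟨m, fun k => t k * e, by
    rw [← hfd, sub_self, norm_zero]; exact hε⟩⟩
  have hcor : ∀ c : A, e * (∑ k, star (t k * e) * c * (t k * e)) * e =
      ∑ k, star (t k * e) * c * (t k * e) := by
    intro c
    rw [Finset.mul_sum, Finset.sum_mul]
    refine Finset.sum_congr rfl fun k _ => ?_
    rw [star_mul, hes']
    calc _ = (e * e) * (star (t k) * c * t k) * (e * e) := by simp only [mul_assoc]
      _ = _ := by rw [he]; simp only [mul_assoc]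
  have hsum : ‖q + f - e‖ ≤ 1 / 1000000 := by
    have e1 : q + f - e = e * (∑ k, star (t k) * (c₁ + c₂) * t k - e) * e := by
      rw [mul_sub, sub_mul, he, he, Finset.mul_sum, Finset.sum_mul, hqd, hfd,
        ← Finset.sum_add_distrib]
      congr 1
      refine Finset.sum_congr rfl fun k _ => ?_
      rw [star_mul, hes']
      simp only [mul_add, add_mul, mul_assoc]
      abel
    rw [e1]
    calc _ ≤ ‖e * (∑ k, star (t k) * (c₁ + c₂) * t k - e)‖ * ‖e‖ := norm_mul_le _ _
      _ ≤ ‖e‖ * ‖∑ k, star (t k) * (c₁ + c₂) * t k - e‖ * ‖e‖ := by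
          gcongr; exact norm_mul_le _ _
      _ ≤ 1 * (1 / 1000000) * 1 := by
          gcongr
      _ = _ := by ring
  obtain ⟨s, hs1, hs2, hs3⟩ := rows he hes' (hcor c₂) hqi 3 (show (0 : ℝ) < 1 / 1000000 by norm_num)
  obtain ⟨r, hr1, hr2, hr3⟩ := rows he hes' (hcor c₁) hfi 2 (show (0 : ℝ) < 1 / 1000000 by norm_num)
  set d : A := s 0 * star (s 0) + (2 : ℝ) • (s 1 * star (s 1)) + (1 / 2 : ℝ) • (r 0 * star (r 0))
    with hd
  have hds : IsSelfAdjoint d := by
    rw [IsSelfAdjoint, hd]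
    simp only [star_add, star_smul, star_mul, star_star, star_trivial]
  have hse : ∀ i, star (s i) * e = star (s i) := fun i => by
    have := congrArg star (hs1 i)
    rwa [star_mul, hes'] at this
  have hre : ∀ i, star (r i) * e = star (r i) := fun i => by
    have := congrArg star (hr1 i)
    rwa [star_mul, hes'] at this
  have hde : e * d * e = d := by
    have e1 : ∀ i, e * (s i * star (s i)) * e = s i * star (s i) := fun i => by
      rw [← mul_assoc, hs1, mul_assoc, hse]
    have e2 : ∀ i, e * (r i * star (r i)) * e = r i * star (r i) := fun i => by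
      rw [← mul_assoc, hr1, mul_assoc, hre]
    simp only [hd, mul_add, add_mul, mul_smul_comm, smul_mul_assoc, e1, e2]
  have hdher : d ∈ closure (Set.range fun w => e * w * e) := by
    rw [← hde]
    exact subset_closure ⟨d, rfl⟩
  obtain ⟨b₁, b₂, hb1, hb2, hb12, hh1, hh2, hI1, hI2⟩ :=
    Vale.Agent.P133.R2.H474.orth_of_nowhere_scalar hpe hpe hds hdher
      (fun P hP heP l => core_ideal (by norm_num) le_rfl he hes' hq0 hf0 (hcor c₂) hsum hs1 hr1 hr2
        hs3 hr3 hP heP l) (show (0 : ℝ) < 1 / 2 by norm_num)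
  exact ⟨b₁, b₂, hb1, hb2, hb12, hh1, hh2, inId_proj he hpe hI1,
    inId_proj he hpe hI2⟩

end

end Vale.Agent.P133.H185
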